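import Vale.Agent.P214.WIN.Props

/-!
# P214, block ALL: interface with block REG (definitions of propositions only)
-/

open Set Filter Topology MeasureTheory Metric
open scoped RealInnerProductSpace ENNReal ContDiff

namespace Vale.Agent.P214.ALL

/-- **[REG]** (helper308): uniform limits of exact references are smooth where they are exact -/
def RegLimStmt (m n : ℕ) : Prop :=
  ∃ ε : ℝ, 0 < ε ∧ ∀ (u : ℕ → Fin n → REF.E m → ℝ) (v : Fin n → REF.E m → ℝ) (r : ℝ), 0 < r →
    r ≤ 3 / 16 → (∀ j, WIN.Refe ε r (u j)) →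
    (∀ a, TendstoUniformlyOn (fun j => u j a) (v a) atTop (ball 0 r)) →
    ∀ a, ContDiffOn ℝ ∞ (v a) (ball 0 r)

end Vale.Agent.P214.ALL
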