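import Vale.Agent.P214.ALL.Main
import Vale.Agent.P214.REG.Stmts

/-!
# P214, block ALL: the final forms, with block REG plugged in
-/

open Set Filter Topology MeasureTheory Metric
open scoped RealInnerProductSpace ENNReal ContDiff

set_option linter.all false

namespace Vale.Agent.P214.ALL

open Skel WIN

variable {E : Type*} [NormedAddCommGroup E] [InnerProductSpace ℝ E] [FiniteDimensional ℝ E]
  [MeasurableSpace E] [BorelSpace E]
variable {m : ℕ}

/-- **`UC` at points of multiplicity one, from STEP** -/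
theorem uc_mult_one_of_step (hS : StepOneStmt E m (Module.finrank ℝ E - m)) {U : Set E}
    {V : IntegralVarifold m U} (hU : IsOpen U) (hst : V.IsStationary) {x : E} (hx : GoodPt V x)
    (h1 : V.mult x = 1) :
    ∃ W S : Set E, IsOpen W ∧ x ∈ W ∧ W ⊆ U ∧ IsSmoothSubmanifold m S ∧ V.spt ∩ W ⊆ S :=
  uc_mult_one hS (REG.regLim _ _) hU hst hx h1

/-- **STOP**: exact references with summable increments and vanishing height over a fixed ball -/
theorem onGraph_of_seq (m n : ℕ) : ∃ ε : ℝ, 0 < ε ∧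
    ∀ {T : Submodule ℝ E} (F : Frame m n T) {G : Set E} {h : ℝ} {ν : Measure E}
      {P : E → E →L[ℝ] E}, FV.CylStat m T G h ν P → ∀ {r : ℝ}, 0 < r → r ≤ 3 / 16 →
      ball 0 r ⊆ G → ∀ {u : ℕ → Fin n → REF.E m → ℝ} {b : ℕ → ℝ}, Summable b →
      (∀ j, Refe ε r (u j)) → (∀ j a x, |u (j + 1) a x - u j a x| ≤ b j) →
      Tendsto (fun j => hE T (F.lift (u j)) ν r) atTop (𝓝 0) →
      ∃ v : Fin n → REF.E m → ℝ, (∀ a, TendstoUniformly (fun j => u j a) (v a) atTop) ∧
        OnGraph T ν r (F.lift v) :=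
  onGraph_of_summable (REG.regLim m n)

end Vale.Agent.P214.ALL
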