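import Vale.Agent.P214.WIN.Props

/-!
# P214, section WIN: API for `Frame`, `Frame.lift`, `WN`
-/

open Set Filter Topology MeasureTheory Metric
open scoped RealInnerProductSpace ENNReal ContDiff

set_option linter.all false

namespace Vale.Agent.P214.WIN

noncomputable section

variable {E : Type*} [NormedAddCommGroup E] [InnerProductSpace ℝ E] [FiniteDimensional ℝ E]
variable {m n : ℕ} {T : Submodule ℝ E}

/-- frames exist -/
theorem exists_frame (hT : Module.finrank ℝ T = m) (hn : Module.finrank ℝ E - m = n) :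
    Nonempty (Frame m n T) := by
  have h1 : Module.finrank ℝ Tᗮ = n := by
    have := Submodule.finrank_add_finrank_orthogonal T
    omega
  exact ⟨⟨(stdOrthonormalBasis ℝ T).reindex (finCongr hT),
    (stdOrthonormalBasis ℝ Tᗮ).reindex (finCongr h1)⟩⟩

namespace Frame

variable (F : Frame m n T)

/-- the base coordinates as a continuous linear map -/
def xcL : E →L[ℝ] REF.E m :=
  (F.bT.repr.toContinuousLinearEquiv : T →L[ℝ] REF.E m).comp T.orthogonalProjectionOnto

@[simp] lemma xcL_apply (y : E) : F.xcL y = F.xc y := rfl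

lemma continuous_xc : Continuous F.xc := F.xcL.continuous

lemma contDiff_xc {k : WithTop ℕ∞} : ContDiff ℝ k F.xc := F.xcL.contDiff

lemma norm_xc (y : E) : ‖F.xc y‖ = ‖T.starProjection y‖ := by
  unfold xc
  rw [F.bT.repr.norm_map]
  rfl

lemma xc_add (y z : E) : F.xc (y + z) = F.xc y + F.xc z := map_add F.xcL y z
lemma xc_sub (y z : E) : F.xc (y - z) = F.xc y - F.xc z := map_sub F.xcL y z
lemma xc_smul (c : ℝ) (y : E) : F.xc (c • y) = c • F.xc y := map_smul F.xcL c y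
lemma xc_zero : F.xc 0 = 0 := map_zero F.xcL

@[simp] lemma xc_star (y : E) : F.xc (T.starProjection y) = F.xc y := by
  unfold xc
  congr 1
  have h : T.starProjection y = ((T.orthogonalProjectionOnto y : T) : E) := rfl
  rw [h]
  exact Submodule.orthogonalProjectionOnto_mem_subspace_eq_self _

lemma dist_xc (y z : E) : dist (F.xc y) (F.xc z) = dist (T.starProjection y) (T.starProjection z) := by
  rw [dist_eq_norm, dist_eq_norm, ← F.xc_sub, F.norm_xc, map_sub]

lemma norm_bN (a : Fin n) : ‖((F.bN a : Tᗮ) : E)‖ = 1 := by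
  rw [← Submodule.coe_norm]
  exact F.bN.orthonormal.1 a

lemma bN_mem (a : Fin n) : ((F.bN a : Tᗮ) : E) ∈ Tᗮ := (F.bN a).2

lemma star_bN (a : Fin n) : T.starProjection ((F.bN a : Tᗮ) : E) = 0 := by
  rw [Submodule.starProjection_apply_eq_zero_iff]
  exact F.bN_mem a

lemma lift_mem (u : Fin n → REF.E m → ℝ) (y : E) : F.lift u y ∈ Tᗮ :=
  Submodule.sum_mem _ fun a _ => Submodule.smul_mem _ _ (F.bN_mem a)

lemma star_lift (u : Fin n → REF.E m → ℝ) (y : E) : T.starProjection (F.lift u y) = 0 := by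
  rw [Submodule.starProjection_apply_eq_zero_iff]
  exact F.lift_mem u y

lemma lift_base (u : Fin n → REF.E m → ℝ) (y : E) :
    F.lift u (T.starProjection y) = F.lift u y := by
  unfold lift
  rw [F.xc_star]

lemma lift_sub (u v : Fin n → REF.E m → ℝ) (y : E) :
    F.lift u y - F.lift v y = ∑ a, (u a (F.xc y) - v a (F.xc y)) • ((F.bN a : Tᗮ) : E) := by
  unfold lift
  rw [← Finset.sum_sub_distrib]
  exact Finset.sum_congr rfl fun a _ => (sub_smul _ _ _).symm

lemma norm_lift_sub_le (u v : Fin n → REF.E m → ℝ) (y : E) :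
    ‖F.lift u y - F.lift v y‖ ≤ ∑ a, |u a (F.xc y) - v a (F.xc y)| := by
  rw [F.lift_sub]
  refine (norm_sum_le _ _).trans (le_of_eq ?_)
  refine Finset.sum_congr rfl fun a _ => ?_
  rw [norm_smul, F.norm_bN, mul_one, Real.norm_eq_abs]

lemma norm_lift_le (u : Fin n → REF.E m → ℝ) (y : E) :
    ‖F.lift u y‖ ≤ ∑ a, |u a (F.xc y)| := by
  unfold lift
  refine (norm_sum_le _ _).trans (le_of_eq ?_)
  refine Finset.sum_congr rfl fun a _ => ?_
  rw [norm_smul, F.norm_bN, mul_one, Real.norm_eq_abs]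

lemma contDiff_lift {k : WithTop ℕ∞} {u : Fin n → REF.E m → ℝ} (hu : ∀ a, ContDiff ℝ k (u a)) :
    ContDiff ℝ k (F.lift u) := by
  unfold lift
  exact ContDiff.sum fun a _ => ((hu a).comp F.contDiff_xc).smul contDiff_const

lemma contDiffOn_lift {k : WithTop ℕ∞} {u : Fin n → REF.E m → ℝ} {G : Set (REF.E m)}
    (hu : ∀ a, ContDiffOn ℝ k (u a) G) : ContDiffOn ℝ k (F.lift u) (F.xc ⁻¹' G) := by
  unfold lift
  exact ContDiffOn.sum fun a _ => ((hu a).comp F.contDiff_xc.contDiffOn fun y hy => hy).smul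
    contDiffOn_const

lemma continuous_lift {u : Fin n → REF.E m → ℝ} (hu : ∀ a, Continuous (u a)) :
    Continuous (F.lift u) := by
  unfold lift
  exact continuous_finset_sum _ fun a _ => ((hu a).comp F.continuous_xc).smul continuous_const

/-- the lift of a smooth reference is a reference in the sense of KMS -/
lemma ref_lift {u : Fin n → REF.E m → ℝ} (hu : ∀ a, ContDiff ℝ ∞ (u a)) :
    KMS.Ref T (F.lift u) :=
  ⟨F.contDiff_lift hu, fun y => (F.lift_base u y).symm, F.lift_mem u⟩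

/-- components of the relative height -/
lemma inner_rel (u : Fin n → REF.E m → ℝ) (a : Fin n) (y : E) :
    ⟪((F.bN a : Tᗮ) : E), KMS.rel T (F.lift u) y⟫ = F.ht u a y := by
  have h1 : ⟪((F.bN a : Tᗮ) : E), FV.co T y⟫ = ⟪((F.bN a : Tᗮ) : E), y⟫ := by
    rw [FV.co_apply, inner_sub_right]
    have : ⟪((F.bN a : Tᗮ) : E), T.starProjection y⟫ = 0 :=
      Submodule.inner_left_of_mem_orthogonal (T.starProjection_apply_mem y) (F.bN_mem a)
    rw [this, sub_zero]
  have h2 : ⟪((F.bN a : Tᗮ) : E), F.lift u y⟫ = u a (F.xc y) := by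
    unfold lift
    rw [inner_sum, Finset.sum_eq_single a]
    · rw [real_inner_smul_right, real_inner_self_eq_norm_sq, F.norm_bN]
      ring
    · intro b _ hb
      rw [real_inner_smul_right]
      have h3 : ⟪F.bN a, F.bN b⟫ = 0 := F.bN.orthonormal.2 hb.symm
      rw [Submodule.coe_inner] at h3
      rw [h3, mul_zero]
    · intro h
      exact absurd (Finset.mem_univ a) h
  unfold KMS.rel ht
  rw [inner_sub_right, h1, h2]

/-- the squared relative height is the sum of the squares of its components -/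
lemma norm_rel_sq (u : Fin n → REF.E m → ℝ) (y : E) :
    ‖KMS.rel T (F.lift u) y‖ ^ 2 = ∑ a, F.ht u a y ^ 2 := by
  have hmem : KMS.rel T (F.lift u) y ∈ Tᗮ := by
    refine Tᗮ.sub_mem ?_ (F.lift_mem u y)
    rw [FV.co_eq]
    exact Submodule.starProjection_apply_mem _ _
  have h1 := F.bN.sum_sq_norm_inner_right ⟨_, hmem⟩
  rw [Submodule.coe_norm] at h1
  rw [← h1]
  refine Finset.sum_congr rfl fun a _ => ?_
  rw [← F.inner_rel u a y, Submodule.coe_inner, Real.norm_eq_abs, sq_abs]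

end Frame

/-! ### the norm `C^{sW m}` of references -/

/-- smooth and supported in `B_2` -/
structure Cs (u : Fin n → REF.E m → ℝ) : Prop where
  smooth : ∀ a, ContDiff ℝ ∞ (u a)
  supp : ∀ a x, 3 / 8 ≤ ‖x‖ → u a x = 0

lemma Refe.cs {ε r : ℝ} {u : Fin n → REF.E m → ℝ} (h : Refe ε r u) : Cs u := ⟨h.smooth, h.supp⟩

lemma Cs.zero : Cs (fun (_ : Fin n) (_ : REF.E m) => (0:ℝ)) :=
  ⟨fun _ => contDiff_const, fun _ _ _ => rfl⟩

lemma Cs.add {u v : Fin n → REF.E m → ℝ} (hu : Cs u) (hv : Cs v) : Cs fun a x => u a x + v a x :=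
  ⟨fun a => (hu.smooth a).add (hv.smooth a), fun a x hx => by
    rw [hu.supp a x hx, hv.supp a x hx, add_zero]⟩

lemma Cs.sub {u v : Fin n → REF.E m → ℝ} (hu : Cs u) (hv : Cs v) : Cs fun a x => u a x - v a x :=
  ⟨fun a => (hu.smooth a).sub (hv.smooth a), fun a x hx => by
    rw [hu.supp a x hx, hv.supp a x hx, sub_zero]⟩

/-- the norm of `C^{sW m}` -/
def CN (u : Fin n → REF.E m → ℝ) : ℝ :=
  sInf {M : ℝ | 0 ≤ M ∧ ∀ a, ∀ k ≤ sW m, ∀ x, ‖iteratedFDeriv ℝ k (u a) x‖ ≤ M}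

lemma CN_nonneg (u : Fin n → REF.E m → ℝ) : 0 ≤ CN u := Real.sInf_nonneg fun _ h => h.1

lemma CN_le {u : Fin n → REF.E m → ℝ} {M : ℝ} (hM : 0 ≤ M)
    (h : ∀ a, ∀ k ≤ sW m, ∀ x, ‖iteratedFDeriv ℝ k (u a) x‖ ≤ M) : CN u ≤ M :=
  csInf_le ⟨0, fun _ h => h.1⟩ ⟨hM, h⟩

lemma Cs.bounded {u : Fin n → REF.E m → ℝ} (hu : Cs u) :
    ∃ M : ℝ, 0 ≤ M ∧ ∀ a, ∀ k ≤ sW m, ∀ x, ‖iteratedFDeriv ℝ k (u a) x‖ ≤ M := by
  have h1 : ∀ (a : Fin n) (k : ℕ), ∃ M : ℝ, 0 ≤ M ∧ ∀ x, ‖iteratedFDeriv ℝ k (u a) x‖ ≤ M := by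
    intro a k
    have hcs : HasCompactSupport (u a) := HasCompactSupport.intro (isCompact_closedBall 0 (3 / 8))
      fun x hx => hu.supp a x (by
        rw [mem_closedBall, dist_zero_right, not_le] at hx
        exact hx.le)
    have hc : Continuous (iteratedFDeriv ℝ k (u a)) :=
      (hu.smooth a).continuous_iteratedFDeriv (by exact_mod_cast le_top)
    obtain ⟨M, hM⟩ := hc.bounded_above_of_compact_support (hcs.iteratedFDeriv (𝕜 := ℝ) k)
    exact ⟨max M 0, le_max_right _ _, fun x => (hM x).trans (le_max_left _ _)⟩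
  choose M hM0 hM using h1
  refine ⟨∑ a, ∑ k ∈ Finset.range (sW m + 1), M a k,
    Finset.sum_nonneg fun a _ => Finset.sum_nonneg fun k _ => hM0 a k, fun a k hk x => ?_⟩
  calc ‖iteratedFDeriv ℝ k (u a) x‖ ≤ M a k := hM a k x
    _ ≤ ∑ k ∈ Finset.range (sW m + 1), M a k :=
        Finset.single_le_sum (f := fun k => M a k) (fun k _ => hM0 a k)
          (Finset.mem_range.2 (by omega))
    _ ≤ _ := Finset.single_le_sum (f := fun a => ∑ k ∈ Finset.range (sW m + 1), M a k)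
          (fun a _ => Finset.sum_nonneg fun k _ => hM0 a k) (Finset.mem_univ a)

lemma Cs.le_CN {u : Fin n → REF.E m → ℝ} (hu : Cs u) (a : Fin n) {k : ℕ} (hk : k ≤ sW m)
    (x : REF.E m) : ‖iteratedFDeriv ℝ k (u a) x‖ ≤ CN u :=
  le_csInf hu.bounded fun _ h => h.2 a k hk x

lemma Cs.abs_le_CN {u : Fin n → REF.E m → ℝ} (hu : Cs u) (a : Fin n) (x : REF.E m) :
    |u a x| ≤ CN u := by
  have := hu.le_CN a (Nat.zero_le _) x
  rwa [norm_iteratedFDeriv_zero, Real.norm_eq_abs] at this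

lemma CN_zero : CN (fun (_ : Fin n) (_ : REF.E m) => (0:ℝ)) = 0 := by
  refine le_antisymm (CN_le le_rfl fun a k _ x => ?_) (CN_nonneg _)
  have : iteratedFDeriv ℝ k (fun _ : REF.E m => (0:ℝ)) = 0 := iteratedFDeriv_zero_fun
  rw [this]
  simp

lemma CN_add {u v : Fin n → REF.E m → ℝ} (hu : Cs u) (hv : Cs v) :
    CN (fun a x => u a x + v a x) ≤ CN u + CN v := by
  refine CN_le (add_nonneg (CN_nonneg _) (CN_nonneg _)) fun a k hk x => ?_
  have hk' : ((k : ℕ∞) : WithTop ℕ∞) ≤ (∞ : WithTop ℕ∞) := by exact_mod_cast le_top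
  have h1 := iteratedFDeriv_add_apply (𝕜 := ℝ) (i := k) (x := x)
    ((hu.smooth a).of_le hk').contDiffAt ((hv.smooth a).of_le hk').contDiffAt
  have e : (u a + v a) = fun x => u a x + v a x := rfl
  rw [e] at h1
  rw [h1]
  exact (norm_add_le _ _).trans (add_le_add (hu.le_CN a hk x) (hv.le_CN a hk x))

/-- triangle inequality in the form used in the iteration -/
lemma CN_le_add_sub {u u' : Fin n → REF.E m → ℝ} (hu : Cs u) (hu' : Cs u') :
    CN u' ≤ CN u + CN (fun a x => u' a x - u a x) := by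
  have h := CN_add hu (hu'.sub hu)
  have e : (fun a x => u a x + (u' a x - u a x)) = u' := by
    funext a x; ring
  rwa [e] at h

lemma Cs.refe {u : Fin n → REF.E m → ℝ} (hu : Cs u) {r ε : ℝ} (hs : CN u ≤ ε)
    (hex : ∀ a x, ‖x‖ < r → REF.Mop u a x = 0) : Refe ε r u :=
  ⟨hu.smooth, hu.supp, fun a k hk x => (hu.le_CN a hk x).trans hs, hex⟩

lemma Refe.CN_le {ε r : ℝ} {u : Fin n → REF.E m → ℝ} (h : Refe ε r u) (hε : 0 ≤ ε) : CN u ≤ ε :=
  WIN.CN_le hε h.small

lemma Refe.weaken {ε ε' r r' : ℝ} {u : Fin n → REF.E m → ℝ} (h : Refe ε r u) (hε : ε ≤ ε')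
    (hr : r' ≤ r) : Refe ε' r' u :=
  ⟨h.smooth, h.supp, fun a k hk x => (h.small a k hk x).trans hε,
    fun a x hx => h.exact a x (hx.trans_le hr)⟩

end

end Vale.Agent.P214.WIN
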