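import Vale.Agent.P214.Skel.Defs

/-!
# P214, block ALL: graphs over the base plane are smooth submanifolds; closedness of
`support ⊆ graph`
-/

open Set Filter Topology MeasureTheory Metric
open scoped RealInnerProductSpace ENNReal ContDiff

set_option linter.all false

namespace Vale.Agent.P214.ALL

open Skel

variable {E : Type*} [NormedAddCommGroup E] [InnerProductSpace ℝ E] [FiniteDimensional ℝ E]

/-- the graph of `w` over the base set `G` -/
def graphOver (T : Submodule ℝ E) (w : E → E) (G : Set E) : Set E :=
  {y | T.starProjection y ∈ G ∧ y - T.starProjection y = w (T.starProjection y)}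

section
variable [MeasurableSpace E] [BorelSpace E]

/-- **graphs are smooth submanifolds** -/
theorem isSmoothSubmanifold_graph {m : ℕ} {T : Submodule ℝ E} (hT : Module.finrank ℝ T = m)
    {w : E → E} {G : Set E} (hG : IsOpen G)
    (hw : ContDiffOn ℝ ∞ (fun y => w (T.starProjection y)) (T.starProjection ⁻¹' G))
    (hperp : ∀ y, T.starProjection y ∈ G → T.starProjection (w (T.starProjection y)) = 0) :
    IsSmoothSubmanifold m (graphOver T w G) := by
  have hpp : ∀ y, T.starProjection (T.starProjection y) = T.starProjection y := fun y =>
    Submodule.starProjection_eq_self_iff.2 (T.starProjection_apply_mem y)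
  have hopen : IsOpen (T.starProjection ⁻¹' G) := hG.preimage T.starProjection.continuous
  have hsub : ∀ y, T.starProjection y ∈ G →
      T.starProjection (y - w (T.starProjection y)) = T.starProjection y := by
    intro y hy
    rw [map_sub, hperp y hy, sub_zero]
  have hadd : ∀ y, T.starProjection y ∈ G →
      T.starProjection (y + w (T.starProjection y)) = T.starProjection y := by
    intro y hy
    rw [map_add, hperp y hy, add_zero]
  have hc1 : ContDiffOn ℝ ∞ (fun y => y - w (T.starProjection y)) (T.starProjection ⁻¹' G) :=
    contDiffOn_id.sub hw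
  have hc2 : ContDiffOn ℝ ∞ (fun y => y + w (T.starProjection y)) (T.starProjection ⁻¹' G) :=
    contDiffOn_id.add hw
  let Φ : OpenPartialHomeomorph E E :=
    { toFun := fun y => y - w (T.starProjection y)
      invFun := fun y => y + w (T.starProjection y)
      source := T.starProjection ⁻¹' G
      target := T.starProjection ⁻¹' G
      map_source' := by
        intro y hy
        rw [mem_preimage] at hy ⊢
        rw [hsub y hy]; exact hy
      map_target' := by
        intro y hy
        rw [mem_preimage] at hy ⊢
        rw [hadd y hy]; exact hy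
      left_inv' := by
        intro y hy
        rw [mem_preimage] at hy
        change y - w (T.starProjection y) + w (T.starProjection (y - w (T.starProjection y))) = y
        rw [hsub y hy]
        abel
      right_inv' := by
        intro y hy
        rw [mem_preimage] at hy
        change y + w (T.starProjection y) - w (T.starProjection (y + w (T.starProjection y))) = y
        rw [hadd y hy]
        abel
      open_source := hopen
      open_target := hopen
      continuousOn_toFun := hc1.continuousOn
      continuousOn_invFun := hc2.continuousOn }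
  intro p hp
  refine ⟨Φ, hp.1, hc1, hc2, T, hT, ?_⟩
  ext z
  constructor
  · rintro ⟨y, ⟨⟨hy1, hy2⟩, -⟩, rfl⟩
    have h1 : Φ y = T.starProjection y := by
      change y - w (T.starProjection y) = T.starProjection y
      rw [← hy2]; abel
    rw [h1]
    refine ⟨T.starProjection_apply_mem y, ?_⟩
    change T.starProjection (T.starProjection y) ∈ G
    rw [hpp]; exact hy1
  · rintro ⟨hz1, hz2⟩
    have hz : T.starProjection z = z := Submodule.starProjection_eq_self_iff.2 hz1
    have hz2' : T.starProjection z ∈ G := hz2
    refine ⟨z + w (T.starProjection z), ⟨⟨?_, ?_⟩, ?_⟩, ?_⟩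
    · rw [hadd z hz2']; exact hz2'
    · rw [hadd z hz2']
      have : z + w (T.starProjection z) - T.starProjection z = w (T.starProjection z) := by
        nth_rewrite 2 [hz]; abel
      exact this
    · change T.starProjection (z + w (T.starProjection z)) ∈ G
      rw [hadd z hz2']; exact hz2'
    · change z + w (T.starProjection z) - w (T.starProjection (z + w (T.starProjection z))) = z
      rw [hadd z hz2']; abel

/-- an a.e. identity of continuous functions holds on the support -/
theorem eq_on_support {T : Submodule ℝ E} {ν : Measure E} {w : E → E} {G : Set E} (hG : IsOpen G)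
    (hw : ContinuousOn (fun y => w (T.starProjection y)) (T.starProjection ⁻¹' G))
    (hae : ∀ᵐ y ∂ν, T.starProjection y ∈ G → y - T.starProjection y = w (T.starProjection y))
    {y : E} (hy : ∀ W ∈ 𝓝 y, 0 < ν W) (hyG : T.starProjection y ∈ G) :
    y ∈ graphOver T w G := by
  refine ⟨hyG, ?_⟩
  by_contra hne
  have hopen : IsOpen (T.starProjection ⁻¹' G) := hG.preimage T.starProjection.continuous
  have hc : ContinuousOn (fun y => y - T.starProjection y - w (T.starProjection y))
      (T.starProjection ⁻¹' G) :=
    (continuousOn_id.sub T.starProjection.continuous.continuousOn).sub hw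
  have h1 : {z | T.starProjection z ∈ G ∧ z - T.starProjection z - w (T.starProjection z) ≠ 0} ∈
      𝓝 y := by
    have h2 := (hc.continuousAt (hopen.mem_nhds hyG)).eventually_ne
      (y := (0 : E)) (by rwa [sub_ne_zero])
    filter_upwards [h2, hopen.mem_nhds hyG] with z hz1 hz2
    exact ⟨hz2, hz1⟩
  have h3 := hy _ h1
  have h4 : ν {z | T.starProjection z ∈ G ∧ z - T.starProjection z - w (T.starProjection z) ≠ 0}
      = 0 := by
    rw [ae_iff] at hae
    refine measure_mono_null ?_ hae
    rintro z ⟨hz1, hz2⟩ hcon
    exact hz2 (sub_eq_zero.2 (hcon hz1))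
  rw [h4] at h3
  exact lt_irrefl _ h3

/-- **closedness**: if `w j → w∞` uniformly over `G` and the `L²` distances tend to zero, then the
measure sits on the graph of `w∞` over `G` -/
theorem ae_graph_of_tendsto {T : Submodule ℝ E} {ν : Measure E} {w : ℕ → E → E} {w₀ : E → E}
    {G : Set E}
    (hunif : TendstoUniformlyOn (fun j y => w j (T.starProjection y))
      (fun y => w₀ (T.starProjection y)) atTop (T.starProjection ⁻¹' G))
    (hint : Tendsto (fun j => ∫⁻ y in T.starProjection ⁻¹' G,
      ‖y - T.starProjection y - w j (T.starProjection y)‖ₑ ^ 2 ∂ν) atTop (𝓝 0))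
    (hG : MeasurableSet (T.starProjection ⁻¹' G)) 
    (hmeas : ∀ j, AEMeasurable (fun y => w j (T.starProjection y))
      (ν.restrict (T.starProjection ⁻¹' G))) :
    ∀ᵐ y ∂ν, T.starProjection y ∈ G → y - T.starProjection y = w₀ (T.starProjection y) := by
  -- Fatou
  have hlim : ∀ y ∈ T.starProjection ⁻¹' G, Tendsto (fun j =>
      ‖y - T.starProjection y - w j (T.starProjection y)‖ₑ ^ 2) atTop
      (𝓝 (‖y - T.starProjection y - w₀ (T.starProjection y)‖ₑ ^ 2)) := by
    intro y hy
    have h1 := hunif.tendsto_at hy
    have h2 : Tendsto (fun j => y - T.starProjection y - w j (T.starProjection y)) atTop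
        (𝓝 (y - T.starProjection y - w₀ (T.starProjection y))) := tendsto_const_nhds.sub h1
    exact (ENNReal.continuous_pow 2).continuousAt.tendsto.comp (continuous_enorm.continuousAt.tendsto.comp h2)
  have hm : ∀ j, AEMeasurable (fun y =>
      ‖y - T.starProjection y - w j (T.starProjection y)‖ₑ ^ 2)
      (ν.restrict (T.starProjection ⁻¹' G)) := by
    intro j
    have h1 : AEMeasurable (fun y => y - T.starProjection y - w j (T.starProjection y))
        (ν.restrict (T.starProjection ⁻¹' G)) :=
      ((continuous_id.sub T.starProjection.continuous).measurable.aemeasurable).sub (hmeas j)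
    exact h1.enorm.pow_const 2
  have hfatou := lintegral_liminf_le' (u := (atTop : Filter ℕ))
    (μ := ν.restrict (T.starProjection ⁻¹' G)) (f := fun (j : ℕ) (y : E) =>
      ‖y - T.starProjection y - w j (T.starProjection y)‖ₑ ^ 2) hm
  rw [hint.liminf_eq] at hfatou
  have h0 : ∫⁻ y in T.starProjection ⁻¹' G,
      ‖y - T.starProjection y - w₀ (T.starProjection y)‖ₑ ^ 2 ∂ν = 0 := by
    refine le_antisymm ?_ bot_le
    refine le_trans (le_of_eq ?_) hfatou
    exact setLIntegral_congr_fun hG fun y hy => ((hlim y hy).liminf_eq).symm
  have hae : ∀ᵐ y ∂(ν.restrict (T.starProjection ⁻¹' G)), y ∈ T.starProjection ⁻¹' G :=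
    ae_restrict_mem hG
  have hml : AEMeasurable (fun y => ‖y - T.starProjection y - w₀ (T.starProjection y)‖ₑ ^ 2)
      (ν.restrict (T.starProjection ⁻¹' G)) := by
    refine aemeasurable_of_tendsto_metrizable_ae atTop hm ?_
    filter_upwards [hae] with y hy
    exact hlim y hy
  have h0' := (lintegral_eq_zero_iff' hml).1 h0
  rw [EventuallyEq, ae_restrict_iff' hG] at h0'
  filter_upwards [h0'] with y hy hmem
  have h2 := hy hmem
  have h3 : ‖y - T.starProjection y - w₀ (T.starProjection y)‖ₑ = 0 := by
    simpa using h2
  rw [enorm_eq_zero, sub_eq_zero] at h3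
  exact h3

end

end Vale.Agent.P214.ALL
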