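import Mathlib

/-!
# P214, block ALL: abstract superlinear iteration on shrinking balls
-/

open Set Filter Topology

set_option linter.all false

namespace Vale.Agent.P214.ALL

/-- data of one superlinear improvement scheme -/
structure Scheme (X : Type*) (ex : X → ℝ → Prop) (En : X → ℝ → ℝ) (nm : X → ℝ) (ds : X → X → ℝ)
    (a c c₁ ε₀ B ρ : ℝ) : Prop where
  en_nonneg : ∀ w r, 0 ≤ En w r
  en_mono : ∀ w r r', r' ≤ r → r ≤ ρ → ex w r → En w r' ≤ En w r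
  ex_mono : ∀ w r r', r' ≤ r → ex w r → ex w r'
  ds_self : ∀ w, ds w w = 0
  step : ∀ w r, ρ / 2 ≤ r → r ≤ ρ → nm w ≤ ε₀ → ex w r → 0 < En w r → En w r ≤ ε₀ →
    ∃ w', nm w' ≤ nm w + En w r ^ a ∧ ds w w' ≤ En w r ^ a ∧ ex w' (r - B * En w r ^ c₁) ∧
      En w' (r - B * En w r ^ c₁) ≤ En w r ^ (1 + c)

lemma exists_small {a c c₁ ε₀ κ : ℝ} (ha : 0 < a) (hc : 0 < c) (hc₁ : 0 < c₁) (hε₀ : 0 < ε₀)
    (hκ : 0 < κ) :
    ∃ ε : ℝ, 0 < ε ∧ ε ≤ ε₀ ∧ ε ≤ 1 ∧ ε ^ c ≤ 1 / 2 ∧ (ε ^ c) ^ a ≤ 1 / 2 ∧ (ε ^ c) ^ c₁ ≤ 1 / 2 ∧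
      ε ^ c₁ ≤ κ ∧ ε ^ a ≤ ε₀ / 4 ∧ ε ^ a ≤ 1 := by
  have h0 : ∀ p : ℝ, 0 < p → Tendsto (fun ε : ℝ => ε ^ p) (𝓝[>] 0) (𝓝 0) := by
    intro p hp
    have h1 : Tendsto (fun ε : ℝ => ε ^ p) (𝓝 0) (𝓝 ((0:ℝ) ^ p)) :=
      (Real.continuousAt_rpow_const 0 p (Or.inr hp.le)).tendsto
    rw [Real.zero_rpow hp.ne'] at h1
    exact h1.mono_left nhdsWithin_le_nhds
  have h1 : Tendsto (fun ε : ℝ => (ε ^ c) ^ a) (𝓝[>] 0) (𝓝 0) := by
    refine (h0 (c * a) (mul_pos hc ha)).congr' ?_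
    filter_upwards [self_mem_nhdsWithin] with ε hε
    rw [Real.rpow_mul (le_of_lt hε)]
  have h2 : Tendsto (fun ε : ℝ => (ε ^ c) ^ c₁) (𝓝[>] 0) (𝓝 0) := by
    refine (h0 (c * c₁) (mul_pos hc hc₁)).congr' ?_
    filter_upwards [self_mem_nhdsWithin] with ε hε
    rw [Real.rpow_mul (le_of_lt hε)]
  have h3 : ∀ᶠ ε in 𝓝[>] (0:ℝ), ε ∈ Ioc (0:ℝ) (min ε₀ 1) :=
    Ioc_mem_nhdsGT (lt_min hε₀ one_pos)
  have h4 : ∀ᶠ ε in 𝓝[>] (0:ℝ), 0 < ε ∧ ε ≤ ε₀ ∧ ε ≤ 1 ∧ ε ^ c ≤ 1 / 2 ∧ (ε ^ c) ^ a ≤ 1 / 2 ∧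
      (ε ^ c) ^ c₁ ≤ 1 / 2 ∧ ε ^ c₁ ≤ κ ∧ ε ^ a ≤ ε₀ / 4 ∧ ε ^ a ≤ 1 := by
    filter_upwards [h3, (h0 c hc).eventually (ge_mem_nhds (show (0:ℝ) < 1 / 2 by norm_num)),
      h1.eventually (ge_mem_nhds (show (0:ℝ) < 1 / 2 by norm_num)),
      h2.eventually (ge_mem_nhds (show (0:ℝ) < 1 / 2 by norm_num)),
      (h0 c₁ hc₁).eventually (ge_mem_nhds hκ),
      (h0 a ha).eventually (ge_mem_nhds (show (0:ℝ) < ε₀ / 4 by positivity)),
      (h0 a ha).eventually (ge_mem_nhds (show (0:ℝ) < 1 by norm_num))]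
      with ε e1 e2 e3 e4 e5 e6 e7
    exact ⟨e1.1, e1.2.trans (min_le_left _ _), e1.2.trans (min_le_right _ _), e2, e3, e4, e5,
      e6, e7⟩
  exact h4.exists

/-- **the iteration** -/
theorem exists_seq {a c c₁ ε₀ B ρ : ℝ} (ha : 0 < a) (hc : 0 < c) (hc₁ : 0 < c₁) (hε₀ : 0 < ε₀)
    (hB : 0 < B) (hρ : 0 < ρ) :
    ∃ ε : ℝ, 0 < ε ∧ ∀ {X : Type*} {ex : X → ℝ → Prop} {En : X → ℝ → ℝ} {nm : X → ℝ}
      {ds : X → X → ℝ}, Scheme X ex En nm ds a c c₁ ε₀ B ρ → ∀ w₀ : X, nm w₀ ≤ ε₀ / 2 →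
      ex w₀ ρ → En w₀ ρ ≤ ε → ∃ w : ℕ → X, w 0 = w₀ ∧ (∀ j, nm (w j) ≤ ε₀) ∧
        (∀ j, ex (w j) (ρ / 2)) ∧ (∀ j, ds (w j) (w (j + 1)) ≤ (1 / 2) ^ j) ∧
        Tendsto (fun j => En (w j) (ρ / 2)) atTop (𝓝 0) := by
  have hκ : 0 < ρ / (4 * B) := by positivity
  obtain ⟨ε, hε, hεε₀, hε1, hq, hqa, hqc₁, hεc₁', hεa, hεa1⟩ := exists_small ha hc hc₁ hε₀ hκ
  have hεc₁ : B * ε ^ c₁ ≤ ρ / 4 := by
    calc B * ε ^ c₁ ≤ B * (ρ / (4 * B)) := mul_le_mul_of_nonneg_left hεc₁' hB.le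
      _ = ρ / 4 := by field_simp
  refine ⟨ε, hε, ?_⟩
  intro X ex En nm ds S w₀ hnm hex hEn
  classical
  -- the step function
  let Good : X × ℝ → Prop := fun p => ρ / 2 ≤ p.2 ∧ p.2 ≤ ρ ∧ nm p.1 ≤ ε₀ ∧ ex p.1 p.2 ∧
    0 < En p.1 p.2 ∧ En p.1 p.2 ≤ ε₀
  have hstep : ∀ p : X × ℝ, ∃ p' : X × ℝ, (Good p → nm p'.1 ≤ nm p.1 + En p.1 p.2 ^ a ∧
      ds p.1 p'.1 ≤ En p.1 p.2 ^ a ∧ p'.2 = p.2 - B * En p.1 p.2 ^ c₁ ∧ ex p'.1 p'.2 ∧
      En p'.1 p'.2 ≤ En p.1 p.2 ^ (1 + c)) ∧ (¬ Good p → p' = p) := by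
    intro p
    by_cases hg : Good p
    · obtain ⟨w', h1, h2, h3, h4⟩ := S.step p.1 p.2 hg.1 hg.2.1 hg.2.2.1 hg.2.2.2.1 hg.2.2.2.2.1
        hg.2.2.2.2.2
      exact ⟨(w', p.2 - B * En p.1 p.2 ^ c₁), fun _ => ⟨h1, h2, rfl, h3, h4⟩,
        fun hn => absurd hg hn⟩
    · exact ⟨p, fun h => absurd h hg, fun _ => rfl⟩
  choose F hF1 hF2 using hstep
  let f : ℕ → X × ℝ := fun k => F^[k] (w₀, ρ)
  have hf0 : f 0 = (w₀, ρ) := rfl
  have hfs : ∀ k, f (k + 1) = F (f k) := fun k => Function.iterate_succ_apply' F k _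
  set q : ℝ := ε ^ c with hqdef
  have hq0 : 0 < q := Real.rpow_pos_of_pos hε c
  -- invariants
  have key : ∀ k, ex (f k).1 (f k).2 ∧ En (f k).1 (f k).2 ≤ ε * q ^ k ∧
      ρ - (2 * (B * ε ^ c₁) - 2 * (B * ε ^ c₁ * (1 / 2) ^ k)) ≤ (f k).2 ∧ (f k).2 ≤ ρ ∧
      nm (f k).1 ≤ ε₀ / 2 + (2 * ε ^ a - 2 * (ε ^ a * (1 / 2) ^ k)) := by
    intro k
    induction k with
    | zero => 
      rw [hf0]
      refine ⟨hex, by simpa using hEn, by simp, le_rfl, by simpa using hnm⟩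
    | succ k ih =>
      obtain ⟨i1, i2, i3, i4, i5⟩ := ih
      have hk0 : (0:ℝ) < (1 / 2) ^ k := by positivity
      have hk1 : ((1:ℝ) / 2) ^ k ≤ 1 := pow_le_one₀ (by norm_num) (by norm_num)
      have hks : ((1:ℝ) / 2) ^ (k + 1) = (1 / 2) ^ k / 2 := by rw [pow_succ]; ring
      have hqk1 : q ^ k ≤ 1 := pow_le_one₀ hq0.le (hq.trans (by norm_num))
      have hea : 0 < ε ^ a := Real.rpow_pos_of_pos hε a
      have hec : 0 < ε ^ c₁ := Real.rpow_pos_of_pos hε c₁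
      have hBe : 0 < B * ε ^ c₁ := mul_pos hB hec
      have hA : 0 < B * ε ^ c₁ * (1 / 2) ^ k := mul_pos hBe hk0
      have hB' : 0 < ε ^ a * (1 / 2) ^ k := mul_pos hea hk0
      have hAs : B * ε ^ c₁ * (1 / 2) ^ (k + 1) = B * ε ^ c₁ * (1 / 2) ^ k / 2 := by rw [hks]; ring
      have hBs : ε ^ a * (1 / 2) ^ (k + 1) = ε ^ a * (1 / 2) ^ k / 2 := by rw [hks]; ring
      have hr : ρ / 2 ≤ (f k).2 := by linarith
      have hn : nm (f k).1 ≤ ε₀ := by linarith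
      have hE1 : En (f k).1 (f k).2 ≤ ε := i2.trans (mul_le_of_le_one_right hε.le hqk1)
      rw [hfs]
      by_cases hpos : 0 < En (f k).1 (f k).2
      · have hg : Good (f k) := ⟨hr, i4, hn, i1, hpos, hE1.trans hεε₀⟩
        obtain ⟨j1, j2, j3, j4, j5⟩ := hF1 (f k) hg
        -- bounds of powers
        have hpow : ∀ p : ℝ, 0 < p → q ^ p ≤ 1 / 2 → En (f k).1 (f k).2 ^ p ≤
            ε ^ p * (1 / 2) ^ k := by
          intro p hp hqp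
          calc En (f k).1 (f k).2 ^ p ≤ (ε * q ^ k) ^ p :=
                Real.rpow_le_rpow hpos.le i2 hp.le
            _ = ε ^ p * (q ^ p) ^ k := by
                rw [Real.mul_rpow hε.le (pow_nonneg hq0.le k), ← Real.rpow_natCast,
                  ← Real.rpow_natCast, ← Real.rpow_mul hq0.le, ← Real.rpow_mul hq0.le, mul_comm p]
            _ ≤ ε ^ p * (1 / 2) ^ k := by
                refine mul_le_mul_of_nonneg_left ?_ (Real.rpow_nonneg hε.le p)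
                exact pow_le_pow_left₀ (Real.rpow_nonneg hq0.le p) hqp k
        have ha' := hpow a ha hqa
        have hc' : B * En (f k).1 (f k).2 ^ c₁ ≤ B * ε ^ c₁ * (1 / 2) ^ k := by
          rw [mul_assoc]
          exact mul_le_mul_of_nonneg_left (hpow c₁ hc₁ hqc₁) hB.le
        have hc0 : 0 ≤ B * En (f k).1 (f k).2 ^ c₁ :=
          mul_nonneg hB.le (Real.rpow_nonneg hpos.le _)
        refine ⟨j4, ?_, ?_, ?_, ?_⟩
        · calc En (F (f k)).1 (F (f k)).2 ≤ En (f k).1 (f k).2 ^ (1 + c) := j5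
            _ = En (f k).1 (f k).2 * En (f k).1 (f k).2 ^ c := by
                rw [Real.rpow_add hpos, Real.rpow_one]
            _ ≤ (ε * q ^ k) * ε ^ c := by
                refine mul_le_mul i2 (Real.rpow_le_rpow hpos.le hE1 hc.le)
                  (Real.rpow_nonneg hpos.le _) (by positivity)
            _ = ε * q ^ (k + 1) := by rw [pow_succ, hqdef]; ring
        · rw [j3, hAs]; linarith
        · rw [j3]; linarith
        · rw [hBs]; linarith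
      · have hng : ¬ Good (f k) := fun h => hpos h.2.2.2.2.1
        rw [hF2 (f k) hng]
        have hz : En (f k).1 (f k).2 = 0 := le_antisymm (not_lt.1 hpos) (S.en_nonneg _ _)
        refine ⟨i1, ?_, ?_, i4, ?_⟩
        · rw [hz]; positivity
        · rw [hAs]; linarith
        · rw [hBs]; linarith
  have hhalf : ∀ k, ρ / 2 ≤ (f k).2 := by
    intro k
    obtain ⟨i1, i2, i3, i4, i5⟩ := key k
    have hk0 : (0:ℝ) < (1 / 2) ^ k := by positivity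
    have hec : 0 < ε ^ c₁ := Real.rpow_pos_of_pos hε c₁
    have hA : 0 < B * ε ^ c₁ * (1 / 2) ^ k := mul_pos (mul_pos hB hec) hk0
    linarith
  have hnmk : ∀ k, nm (f k).1 ≤ ε₀ := by
    intro k
    obtain ⟨i1, i2, i3, i4, i5⟩ := key k
    have hk0 : (0:ℝ) < (1 / 2) ^ k := by positivity
    have hea : 0 < ε ^ a := Real.rpow_pos_of_pos hε a
    have hB : 0 < ε ^ a * (1 / 2) ^ k := mul_pos hea hk0
    linarith
  have hEk : ∀ k, En (f k).1 (ρ / 2) ≤ ε * (1 / 2) ^ k := by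
    intro k
    refine (S.en_mono _ _ _ (hhalf k) (key k).2.2.2.1 (key k).1).trans ((key k).2.1.trans ?_)
    exact mul_le_mul_of_nonneg_left (pow_le_pow_left₀ hq0.le hq k) hε.le
  refine ⟨fun k => (f k).1, rfl, hnmk, fun k => S.ex_mono _ _ _ (hhalf k) (key k).1, ?_, ?_⟩
  · intro k
    obtain ⟨i1, i2, i3, i4, i5⟩ := key k
    have hqk1 : q ^ k ≤ 1 := pow_le_one₀ hq0.le (hq.trans (by norm_num))
    have hE1 : En (f k).1 (f k).2 ≤ ε := i2.trans (mul_le_of_le_one_right hε.le hqk1)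
    change ds (f k).1 (f (k + 1)).1 ≤ _
    rw [hfs]
    by_cases hpos : 0 < En (f k).1 (f k).2
    · have hg : Good (f k) := ⟨hhalf k, i4, hnmk k, i1, hpos, hE1.trans hεε₀⟩
      obtain ⟨j1, j2, j3, j4, j5⟩ := hF1 (f k) hg
      calc ds (f k).1 (F (f k)).1 ≤ En (f k).1 (f k).2 ^ a := j2
        _ ≤ (ε * q ^ k) ^ a := Real.rpow_le_rpow hpos.le i2 ha.le
        _ = ε ^ a * (q ^ a) ^ k := by
            rw [Real.mul_rpow hε.le (pow_nonneg hq0.le k), ← Real.rpow_natCast,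
              ← Real.rpow_natCast, ← Real.rpow_mul hq0.le, ← Real.rpow_mul hq0.le, mul_comm a]
        _ ≤ 1 * (1 / 2) ^ k := by
            refine mul_le_mul hεa1 ?_ (pow_nonneg (Real.rpow_nonneg hq0.le a) k) zero_le_one
            exact pow_le_pow_left₀ (Real.rpow_nonneg hq0.le a) hqa k
        _ = (1 / 2) ^ k := one_mul _
    · have hng : ¬ Good (f k) := fun h => hpos h.2.2.2.2.1
      rw [hF2 (f k) hng, S.ds_self]
      positivity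
  · refine squeeze_zero (fun k => S.en_nonneg _ _) hEk ?_
    have := (tendsto_pow_atTop_nhds_zero_of_lt_one (r := (1:ℝ) / 2) (by norm_num)
      (by norm_num)).const_mul ε
    rwa [mul_zero] at this

end Vale.Agent.P214.ALL
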