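import Vale.Agent.P214.ALL.Graph
import Vale.Agent.P214.SUB.C
import Vale.Agent.P214.SCALE.Iso
import Vale.Agent.P214.Skel.Top

/-!
# P214, block ALL: from a graph for the blown-up measure to the conclusion of `UC`
-/

open Set Filter Topology MeasureTheory Metric
open scoped RealInnerProductSpace ENNReal ContDiff

set_option linter.all false

namespace Vale.Agent.P214.ALL

open Skel SCALE

variable {E : Type*} [NormedAddCommGroup E] [InnerProductSpace ℝ E] [FiniteDimensional ℝ E]

section
variable [MeasurableSpace E] [BorelSpace E]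

/-- translates of smooth submanifolds -/
lemma isSmoothSubmanifold_translate {m : ℕ} {S : Set E} (hS : IsSmoothSubmanifold m S) (x : E) :
    IsSmoothSubmanifold m {y | y - x ∈ S} := by
  intro p hp
  obtain ⟨Φ, h1, h2, h3, L, hL, h4⟩ := hS (p - x) hp
  let τ : E ≃ₜ E := Homeomorph.subRight x
  let Ψ : OpenPartialHomeomorph E E := τ.transOpenPartialHomeomorph Φ
  have hsrc : Ψ.source = τ ⁻¹' Φ.source := by
    simp [Ψ]
  have htar : Ψ.target = Φ.target := by
    simp [Ψ]
  have hτ : ContDiff ℝ ∞ (fun y : E => y - x) := contDiff_id.sub contDiff_const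
  refine ⟨Ψ, ?_, ?_, ?_, L, hL, ?_⟩
  · rw [hsrc]; exact h1
  · rw [hsrc]
    exact h2.comp hτ.contDiffOn fun y hy => hy
  · rw [htar]
    have hτ' : ContDiff ℝ ∞ (fun y : E => y + x) := contDiff_id.add contDiff_const
    exact hτ'.comp_contDiffOn h3
  · rw [htar, ← h4, hsrc]
    ext z
    constructor
    · rintro ⟨y, ⟨hy1, hy2⟩, rfl⟩
      exact ⟨y - x, ⟨hy1, hy2⟩, rfl⟩
    · rintro ⟨y, ⟨hy1, hy2⟩, rfl⟩
      refine ⟨y + x, ⟨?_, ?_⟩, ?_⟩
      · change y + x - x ∈ S
        rwa [add_sub_cancel_right]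
      · change y + x - x ∈ Φ.source
        rwa [add_sub_cancel_right]
      · change Φ (y + x - x) = Φ y
        rw [add_sub_cancel_right]

/-- what the analysis has to provide: over the base ball of radius `r` the measure sits on the
graph of a smooth function -/
structure OnGraph (T : Submodule ℝ E) (ν : Measure E) (r : ℝ) (w : E → E) : Prop where
  smooth : ContDiffOn ℝ ∞ (fun y => w (T.starProjection y)) (T.starProjection ⁻¹' ball 0 r)
  perp : ∀ y, T.starProjection y ∈ ball (0:E) r → T.starProjection (w (T.starProjection y)) = 0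
  ae : ∀ᵐ y ∂ν, T.starProjection y ∈ ball (0:E) r →
    y - T.starProjection y = w (T.starProjection y)

lemma OnGraph.mono {T : Submodule ℝ E} {ν : Measure E} {r r' : ℝ} {w : E → E}
    (h : OnGraph T ν r w) (hr : r' ≤ r) : OnGraph T ν r' w := by
  refine ⟨h.smooth.mono (preimage_mono (ball_subset_ball hr)), fun y hy => h.perp y
    (ball_subset_ball hr hy), ?_⟩
  filter_upwards [h.ae] with y hy hmem
  exact hy (ball_subset_ball hr hmem)

/-- undoing a dilation around the origin -/
theorem OnGraph.of_dil {T : Submodule ℝ E} {ν : Measure E} {m : ℕ} {l : ℝ} (hl : 0 < l) {r : ℝ}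
    {w : E → E} (h : OnGraph T (dilM m 0 l ν) r w) :
    OnGraph T ν (l⁻¹ * r) (fun y => l⁻¹ • w (l • y)) := by
  have hmem : ∀ y : E, T.starProjection y ∈ ball (0:E) (l⁻¹ * r) →
      T.starProjection (l • y) ∈ ball (0:E) r := by
    intro y hy
    rw [mem_ball_zero_iff] at hy ⊢
    rw [map_smul, norm_smul, Real.norm_eq_abs, abs_of_pos hl]
    calc l * ‖T.starProjection y‖ < l * (l⁻¹ * r) := mul_lt_mul_of_pos_left hy hl
      _ = r := by rw [← mul_assoc, mul_inv_cancel₀ hl.ne', one_mul]
  refine ⟨?_, ?_, ?_⟩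
  · have h1 : ContDiff ℝ ∞ (fun y : E => l • y) := contDiff_id.const_smul l
    have h2 : ContDiffOn ℝ ∞ (fun y : E => w (T.starProjection (l • y)))
        (T.starProjection ⁻¹' ball 0 (l⁻¹ * r)) :=
      h.smooth.comp h1.contDiffOn fun y hy => hmem y hy
    have h3 := h2.const_smul l⁻¹
    refine h3.congr fun y hy => ?_
    simp
  · intro y hy
    have h1 := h.perp (l • y) (hmem y hy)
    rw [map_smul] at h1 ⊢
    rw [h1, smul_zero]
  · have h1 := h.ae
    rw [ae_dilM m hl] at h1
    filter_upwards [h1] with y hy hmem'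
    have hd : dil (0:E) l y = l • y := by simp [dil]
    rw [hd] at hy
    have h2 := hy (hmem y hmem')
    rw [map_smul] at h2
    rw [← h2, ← smul_sub, smul_smul, inv_mul_cancel₀ hl.ne', one_smul]

variable {m : ℕ} {U : Set E} {V : IntegralVarifold m U}

/-- **the last step of `UC`** -/
theorem uc_of_graph {x : E} {r₁ : ℝ} (hr₁ : 0 < r₁) (hU' : closedBall x (2 * r₁) ⊆ U)
    (hx : x ∈ V.spt) (hT : Module.finrank ℝ (V.tangent x) = m) {r : ℝ} (hr : 0 < r)
    (hrr : r ≤ r₁) {w : E → E} (h : OnGraph (V.tangent x) (SUB.cylMeas V x r₁) r w) :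
    ∃ W S : Set E, IsOpen W ∧ x ∈ W ∧ W ⊆ U ∧ IsSmoothSubmanifold m S ∧ V.spt ∩ W ⊆ S := by
  set T := V.tangent x with hTdef
  set W : Set E := {y | ‖T.starProjection (y - x)‖ < r ∧ ‖FV.co T (y - x)‖ < r₁} with hW
  have hcW : Continuous fun y : E => T.starProjection (y - x) :=
    T.starProjection.continuous.comp (continuous_id.sub continuous_const)
  have hcW' : Continuous fun y : E => FV.co T (y - x) :=
    (FV.co T).continuous.comp (continuous_id.sub continuous_const)
  have hWo : IsOpen W := (isOpen_lt hcW.norm continuous_const).inter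
    (isOpen_lt hcW'.norm continuous_const)
  have hWreg : ∀ y ∈ W, y - x ∈ SUB.reg T r₁ := by
    intro y hy
    rw [SUB.mem_reg]
    exact ⟨hy.1.trans_le hrr, hy.2.le⟩
  have hxW : x ∈ W := by
    refine ⟨?_, ?_⟩ <;> simp [hr, hr₁]
  have hWU : W ⊆ U := by
    intro y hy
    refine hU' ?_
    have := SUB.reg_subset T hr₁ (hWreg y hy)
    rw [mem_ball_zero_iff] at this
    rw [mem_closedBall, dist_eq_norm]
    exact this.le
  refine ⟨W, {y | y - x ∈ graphOver T w (ball 0 r)}, hWo, hxW, hWU,
    isSmoothSubmanifold_translate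
      (isSmoothSubmanifold_graph hT isOpen_ball h.smooth h.perp) x, ?_⟩
  rintro y ⟨hy, hyW⟩
  refine eq_on_support isOpen_ball h.smooth.continuousOn h.ae ?_ ?_
  · intro N hN
    -- the preimage neighbourhood
    have h1 : (fun z : E => z - x) ⁻¹' N ∩ W ∈ 𝓝 y := by
      refine inter_mem ?_ (hWo.mem_nhds hyW)
      exact (continuous_id.sub continuous_const).continuousAt.preimage_mem_nhds hN
    have h2 := hy.2 _ h1
    refine lt_of_lt_of_le h2 ?_
    rw [SUB.cylMeas]
    have hsub : (fun z : E => z - x) ⁻¹' N ∩ W ⊆ (fun z : E => z - x) ⁻¹' (N ∩ SUB.reg T r₁) := by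
      rintro z ⟨hz1, hz2⟩
      exact ⟨hz1, hWreg z hz2⟩
    calc V.weight ((fun z : E => z - x) ⁻¹' N ∩ W)
        ≤ V.weight ((fun z : E => z - x) ⁻¹' (N ∩ SUB.reg T r₁)) := measure_mono hsub
      _ = (V.weight.map (fun z => z - x)) (N ∩ SUB.reg T r₁) := by
          rw [(SUB.emb x).map_apply]
      _ = ((V.weight.map (fun z => z - x)).restrict (SUB.reg T r₁)) N := by
          rw [Measure.restrict_apply' (SUB.measurableSet_reg T r₁)]
  · rw [mem_ball_zero_iff]
    exact hyW.1

end

end Vale.Agent.P214.ALL
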