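import Vale.Agent.P214.ALL.Frame
import Vale.Agent.P214.ALL.Props
import Vale.Agent.P214.ALL.Transfer

/-!
# P214, block ALL: limits of references

If the increments of a sequence of exact references are summable in sup norm and the `L²` heights
tend to zero then the measure sits on the graph of the (smooth) limit.
-/

open Set Filter Topology MeasureTheory Metric
open scoped RealInnerProductSpace ENNReal ContDiff

set_option linter.all false

namespace Vale.Agent.P214.ALL

open Skel WIN

section lim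

variable {m n : ℕ}

/-- limits of references with summable increments -/
theorem exists_lim {u : ℕ → Fin n → REF.E m → ℝ} {b : ℕ → ℝ} (hb : Summable b)
    (hd : ∀ j a x, |u (j + 1) a x - u j a x| ≤ b j) :
    ∃ v : Fin n → REF.E m → ℝ, ∀ a,
      (∀ j x, |u j a x - v a x| ≤ ∑' k, b (j + k)) ∧
      TendstoUniformly (fun j => u j a) (v a) atTop := by
  have h1 : ∀ j a x, dist (u j a x) (u (j + 1) a x) ≤ b j := by
    intro j a x
    rw [dist_comm, Real.dist_eq]
    exact hd j a x
  have h2 : ∀ a x, CauchySeq fun j => u j a x := fun a x =>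
    cauchySeq_of_dist_le_of_summable b (fun j => h1 j a x) hb
  choose v hv using fun a x => cauchySeq_tendsto_of_complete (h2 a x)
  have h3 : ∀ a j x, |u j a x - v a x| ≤ ∑' k, b (j + k) := by
    intro a j x
    rw [← Real.dist_eq]
    exact dist_le_tsum_of_dist_le_of_tendsto b (fun j => h1 j a x) hb (hv a x) j
  refine ⟨v, fun a => ⟨fun j x => h3 a j x, ?_⟩⟩
  rw [Metric.tendstoUniformly_iff]
  intro ε hε
  have h4 : Tendsto (fun j => ∑' k, b (j + k)) atTop (𝓝 0) := by
    have h5 := tendsto_sum_nat_add b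
    refine h5.congr fun j => ?_
    exact tsum_congr fun k => by rw [add_comm]
  filter_upwards [h4.eventually (gt_mem_nhds hε)] with j hj x
  rw [dist_comm, Real.dist_eq]
  exact (h3 a j x).trans_lt hj

end lim

variable {E : Type*} [NormedAddCommGroup E] [InnerProductSpace ℝ E] [FiniteDimensional ℝ E]
  [MeasurableSpace E] [BorelSpace E]
variable {m n : ℕ} {T : Submodule ℝ E} {ν : Measure E} {P : E → E →L[ℝ] E} {G : Set E} {h : ℝ}

/-- the relative height is bounded over the domain of the cylinder -/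
lemma ae_rel_le (hC : FV.CylStat m T G h ν P) (F : Frame m n T) {u : Fin n → REF.E m → ℝ}
    (hu : ∀ a, Continuous (u a)) (hs : ∀ a x, 3 / 8 ≤ ‖x‖ → u a x = 0) :
    ∃ M : ℝ, 0 ≤ M ∧ ∀ᵐ y ∂ν, T.starProjection y ∈ G → ‖KMS.rel T (F.lift u) y‖ ≤ M := by
  have h1 : ∀ a, ∃ M : ℝ, 0 ≤ M ∧ ∀ x, |u a x| ≤ M := by
    intro a
    have hcs : HasCompactSupport (u a) := HasCompactSupport.intro (isCompact_closedBall 0 (3 / 8))
      fun x hx => hs a x (by
        rw [mem_closedBall, dist_zero_right, not_le] at hx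
        exact hx.le)
    obtain ⟨M, hM⟩ := (hu a).bounded_above_of_compact_support hcs
    exact ⟨max M 0, le_max_right _ _, fun x => (hM x).trans (le_max_left _ _)⟩
  choose M hM0 hM using h1
  refine ⟨|h| + ∑ a, M a, add_nonneg (abs_nonneg _) (Finset.sum_nonneg fun a _ => hM0 a), ?_⟩
  filter_upwards [hC.slab] with y hy hyG
  unfold KMS.rel
  refine (norm_sub_le _ _).trans (add_le_add ?_ ?_)
  · rw [FV.co_apply]
    exact (hy hyG).trans (le_abs_self h)
  · exact (F.norm_lift_le u y).trans (Finset.sum_le_sum fun a _ => hM a _)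

lemma measurableSet_cyl (T : Submodule ℝ E) (z : E) (R : ℝ) : MeasurableSet (cylSet T z R) :=
  measurableSet_ball.preimage T.starProjection.continuous.measurable

lemma continuous_rel (F : Frame m n T) {u : Fin n → REF.E m → ℝ} (hu : ∀ a, Continuous (u a)) :
    Continuous (KMS.rel T (F.lift u)) :=
  (FV.co T).continuous.sub (F.continuous_lift hu)

/-- integrability of the squared height -/
lemma integrableOn_rel (hC : FV.CylStat m T G h ν P) (F : Frame m n T) {u : Fin n → REF.E m → ℝ}
    (hu : ∀ a, Continuous (u a)) (hs : ∀ a x, 3 / 8 ≤ ‖x‖ → u a x = 0) {z : E} {r : ℝ}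
    (hr : ball z r ⊆ G) :
    IntegrableOn (fun y => ‖KMS.rel T (F.lift u) y‖ ^ 2) (cylSet T z r) ν := by
  haveI := hC.fin
  obtain ⟨M, hM0, hM⟩ := ae_rel_le hC F hu hs
  refine Measure.integrableOn_of_bounded (M := M ^ 2) (measure_ne_top _ _)
    (((continuous_rel F hu).norm.pow 2).aestronglyMeasurable) ?_
  rw [ae_restrict_iff' (measurableSet_cyl T z r)]
  filter_upwards [hM] with y hy hyr
  rw [Real.norm_eq_abs, abs_of_nonneg (sq_nonneg _)]
  exact pow_le_pow_left₀ (norm_nonneg _) (hy (hr hyr)) 2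

lemma hE_nonneg (T : Submodule ℝ E) (w : E → E) (ν : Measure E) (r : ℝ) : 0 ≤ hE T w ν r :=
  integral_nonneg fun _ => sq_nonneg _

lemma hE_mono (hC : FV.CylStat m T G h ν P) (F : Frame m n T) {u : Fin n → REF.E m → ℝ}
    (hu : ∀ a, Continuous (u a)) (hs : ∀ a x, 3 / 8 ≤ ‖x‖ → u a x = 0) {r r' : ℝ}
    (hr : ball 0 r ⊆ G) (hrr : r' ≤ r) : hE T (F.lift u) ν r' ≤ hE T (F.lift u) ν r := by
  unfold hE
  refine setIntegral_mono_set (integrableOn_rel hC F hu hs hr) ?_ ?_
  · exact Eventually.of_forall fun y => sq_nonneg _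
  · exact Eventually.of_forall (preimage_mono (f := T.starProjection) (ball_subset_ball hrr))

lemma lintegral_eq_hE (hC : FV.CylStat m T G h ν P) (F : Frame m n T) {u : Fin n → REF.E m → ℝ}
    (hu : ∀ a, Continuous (u a)) (hs : ∀ a x, 3 / 8 ≤ ‖x‖ → u a x = 0) {r : ℝ}
    (hr : ball 0 r ⊆ G) :
    ∫⁻ y in T.starProjection ⁻¹' ball 0 r,
      ‖y - T.starProjection y - F.lift u (T.starProjection y)‖ₑ ^ 2 ∂ν =
      ENNReal.ofReal (hE T (F.lift u) ν r) := by
  unfold hE
  rw [ofReal_integral_eq_lintegral_ofReal (integrableOn_rel hC F hu hs hr)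
    (Eventually.of_forall fun y => sq_nonneg _)]
  refine lintegral_congr fun y => ?_
  rw [F.lift_base]
  unfold KMS.rel
  rw [FV.co_apply, ENNReal.ofReal_pow (norm_nonneg _), ofReal_norm]

/-- **limits of exact references**: the measure sits on a smooth graph -/
theorem onGraph_of_lim {ε : ℝ} (hR : ∀ (u : ℕ → Fin n → REF.E m → ℝ) (v : Fin n → REF.E m → ℝ)
      (r : ℝ), 0 < r → r ≤ 3 / 16 → (∀ j, WIN.Refe ε r (u j)) →
      (∀ a, TendstoUniformlyOn (fun j => u j a) (v a) atTop (ball 0 r)) →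
      ∀ a, ContDiffOn ℝ ∞ (v a) (ball 0 r))
    (F : Frame m n T) (hC : FV.CylStat m T G h ν P) {r : ℝ} (hr0 : 0 < r) (hr : r ≤ 3 / 16)
    (hG : ball 0 r ⊆ G) {u : ℕ → Fin n → REF.E m → ℝ} {v : Fin n → REF.E m → ℝ}
    (hu : ∀ j, Refe ε r (u j))
    (hlim : ∀ a, TendstoUniformlyOn (fun j => u j a) (v a) atTop (ball 0 r))
    (hE0 : Tendsto (fun j => hE T (F.lift (u j)) ν r) atTop (𝓝 0)) :
    OnGraph T ν r (F.lift v) := by
  have hv := hR u v r hr0 hr hu hlim
  have hmem : ∀ y : E, T.starProjection y ∈ ball (0:E) r → F.xc y ∈ ball (0 : REF.E m) r := by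
    intro y hy
    rw [mem_ball_zero_iff] at hy ⊢
    rwa [F.norm_xc]
  refine ⟨?_, fun y _ => F.star_lift v _, ?_⟩
  · have h1 := F.contDiffOn_lift hv
    have h2 : ContDiffOn ℝ ∞ (F.lift v) (T.starProjection ⁻¹' ball 0 r) :=
      h1.mono fun y hy => hmem y hy
    refine h2.congr fun y _ => F.lift_base v y
  · refine ae_graph_of_tendsto (w := fun j => F.lift (u j)) ?_ ?_ (measurableSet_cyl T 0 r) ?_
    · rw [Metric.tendstoUniformlyOn_iff]
      intro δ hδ
      have h2 : ∀ a, ∀ᶠ j in atTop, ∀ x ∈ ball (0 : REF.E m) r,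
          |u j a x - v a x| < δ / (n + 1) := by
        intro a
        have h3 := Metric.tendstoUniformlyOn_iff.1 (hlim a) (δ / (n + 1)) (by positivity)
        filter_upwards [h3] with j hj x hx
        have := hj x hx
        rwa [dist_comm, Real.dist_eq] at this
      filter_upwards [eventually_all.2 h2] with j hj y hy
      rw [F.lift_base, F.lift_base, dist_comm, dist_eq_norm]
      calc ‖F.lift (u j) y - F.lift v y‖ ≤ ∑ a, |u j a (F.xc y) - v a (F.xc y)| :=
            F.norm_lift_sub_le _ _ _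
        _ ≤ ∑ _a : Fin n, δ / (n + 1) :=
            Finset.sum_le_sum fun a _ => (hj a _ (hmem y hy)).le
        _ = n * (δ / (n + 1)) := by simp
        _ < δ := by
            rw [← mul_div_assoc, div_lt_iff₀ (by positivity)]
            nlinarith
    · have h3 : ∀ j, ∫⁻ y in T.starProjection ⁻¹' ball 0 r,
          ‖y - T.starProjection y - F.lift (u j) (T.starProjection y)‖ₑ ^ 2 ∂ν =
          ENNReal.ofReal (hE T (F.lift (u j)) ν r) := fun j =>
        lintegral_eq_hE hC F (fun a => ((hu j).smooth a).continuous) (hu j).supp hG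
      simp only [h3]
      have := ENNReal.tendsto_ofReal hE0
      rwa [ENNReal.ofReal_zero] at this
    · intro j
      have hc : Continuous fun y => F.lift (u j) (T.starProjection y) :=
        (F.continuous_lift fun a => ((hu j).smooth a).continuous).comp T.starProjection.continuous
      exact hc.measurable.aemeasurable

/-- **the STOP lemma**: exact references with summable increments and vanishing height -/
theorem onGraph_of_summable (hR : RegLimStmt m n) : ∃ ε : ℝ, 0 < ε ∧
    ∀ {T : Submodule ℝ E} (F : Frame m n T) {G : Set E} {h : ℝ} {ν : Measure E}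
      {P : E → E →L[ℝ] E}, FV.CylStat m T G h ν P → ∀ {r : ℝ}, 0 < r → r ≤ 3 / 16 →
      ball 0 r ⊆ G → ∀ {u : ℕ → Fin n → REF.E m → ℝ} {b : ℕ → ℝ}, Summable b →
      (∀ j, Refe ε r (u j)) → (∀ j a x, |u (j + 1) a x - u j a x| ≤ b j) →
      Tendsto (fun j => hE T (F.lift (u j)) ν r) atTop (𝓝 0) →
      ∃ v : Fin n → REF.E m → ℝ, (∀ a, TendstoUniformly (fun j => u j a) (v a) atTop) ∧
        OnGraph T ν r (F.lift v) := by
  obtain ⟨ε, hε, H⟩ := hR
  refine ⟨ε, hε, ?_⟩
  intro T F G h ν P hC r hr0 hr hG u b hb hu hd hE0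
  obtain ⟨v, hv⟩ := exists_lim hb hd
  exact ⟨v, fun a => (hv a).2, onGraph_of_lim H F hC hr0 hr hG hu
    (fun a => (hv a).2.tendstoUniformlyOn) hE0⟩

end Vale.Agent.P214.ALL
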