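import Vale.Agent.P214.ALL.Transfer

/-!
# P214, block ALL: `UC` at points of multiplicity one from Allard's theorem at a fixed scale
-/

open Set Filter Topology MeasureTheory Metric
open scoped RealInnerProductSpace ENNReal ContDiff

set_option linter.all false

namespace Vale.Agent.P214.ALL

open Skel SCALE

/-- **Allard's theorem for one sheet, at a fixed scale** (statement) -/
def AllardOne (E : Type*) [NormedAddCommGroup E] [InnerProductSpace ℝ E] [FiniteDimensional ℝ E]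
    [MeasurableSpace E] [BorelSpace E] (m : ℕ) : Prop :=
  ∃ ε : ℝ, 0 < ε ∧ ∀ (T : Submodule ℝ E) (h : ℝ) (ν : Measure E) (P : E → E →L[ℝ] E),
    h ≤ ε → IntCyl m 1 T 0 (3 / 8) h ε ν P → exc T ν P 0 (3 / 8) ≤ ε →
      ∃ w : E → E, OnGraph T ν (3 / 32) w

variable {E : Type*} [NormedAddCommGroup E] [InnerProductSpace ℝ E] [FiniteDimensional ℝ E]
  [MeasurableSpace E] [BorelSpace E]
variable {m : ℕ} {U : Set E} {V : IntegralVarifold m U}

/-- at a good point the blown-up measures satisfy the hypotheses at a given scale `ρ₀` -/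
theorem exists_scale (hU : IsOpen U) (hst : V.IsStationary) {x : E} (hx : GoodPt V x) {ρ₀ : ℝ}
    (hρ₀ : 0 < ρ₀) {ε : ℝ} (hε : 0 < ε) : ∀ᶠ r₁ in 𝓝[>] (0:ℝ), 0 < r₁ ∧
      closedBall x (2 * r₁) ⊆ U ∧
      IntCyl m (V.mult x) (V.tangent x) 0 ρ₀ ε ε (dilM m 0 (ρ₀ / r₁) (SUB.cylMeas V x r₁))
        (dilP 0 (ρ₀ / r₁) (SUB.trP V x)) ∧
      exc (V.tangent x) (dilM m 0 (ρ₀ / r₁) (SUB.cylMeas V x r₁))
        (dilP 0 (ρ₀ / r₁) (SUB.trP V x)) 0 ρ₀ ≤ ε := by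
  set η : ℝ := min ε (min (ε / ρ₀) (ε / ρ₀ ^ m)) with hη
  have hη0 : 0 < η := lt_min hε (lt_min (div_pos hε hρ₀) (div_pos hε (pow_pos hρ₀ m)))
  filter_upwards [SUB.subcyl hU hst hx hη0, self_mem_nhdsWithin] with r₁ h1 hr₁
  have hr : (0:ℝ) < r₁ := hr₁
  obtain ⟨hUr, h2⟩ := h1
  obtain ⟨hI, hexc⟩ := h2 r₁ hr le_rfl
  set l : ℝ := ρ₀ / r₁ with hldef
  have hl : 0 < l := div_pos hρ₀ hr
  have h3 := intCyl_dil_mem hl (V.tangent x).zero_mem hI
  have hz : dil (0:E) l 0 = 0 := by simp [dil]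
  have h4 : l * r₁ = ρ₀ := by rw [hldef]; field_simp
  have h5 : l * (η * r₁) = η * ρ₀ := by rw [← h4]; ring
  rw [hz, h4, h5] at h3
  have h6 := exc_dil (V.tangent x) m 0 hl (SUB.cylMeas V x r₁) (SUB.trP V x) 0 r₁
  rw [map_zero, hz, h4] at h6
  have h7 : η * ρ₀ ≤ ε := by
    calc η * ρ₀ ≤ ε / ρ₀ * ρ₀ :=
          mul_le_mul_of_nonneg_right ((min_le_right _ _).trans (min_le_left _ _)) hρ₀.le
      _ = ε := by field_simp
  have h8 : η * ρ₀ ^ m ≤ ε := by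
    calc η * ρ₀ ^ m ≤ ε / ρ₀ ^ m * ρ₀ ^ m :=
          mul_le_mul_of_nonneg_right ((min_le_right _ _).trans (min_le_right _ _))
            (pow_pos hρ₀ m).le
      _ = ε := by have := (pow_pos hρ₀ m).ne'; field_simp
  refine ⟨hr, hUr, ?_, ?_⟩
  · obtain ⟨c1, c2, c3, c4, c5⟩ := h3
    refine ⟨?_, c2, c3, c4, c5.trans ?_⟩
    · have hs : ∀ᵐ y ∂(dilM m 0 l (SUB.cylMeas V x r₁)),
          (V.tangent x).starProjection y ∈ ball (0:E) ρ₀ →
          ‖y - (V.tangent x).starProjection y‖ ≤ ε := by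
        filter_upwards [c1.slab] with y hy hyG
        exact (hy hyG).trans h7
      exact { c1 with slab := hs }
    · exact mul_le_mul_of_nonneg_right (min_le_left _ _) (pow_pos hρ₀ m).le
  · rw [h6]
    calc l ^ m * exc (V.tangent x) (SUB.cylMeas V x r₁) (SUB.trP V x) 0 r₁
        ≤ l ^ m * (η * r₁ ^ m) := mul_le_mul_of_nonneg_left hexc (pow_pos hl m).le
      _ = η * (l * r₁) ^ m := by rw [mul_pow]; ring
      _ ≤ ε := by rw [h4]; exact h8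

/-- from a graph for a dilated measure to the conclusion of `UC` -/
theorem uc_of_dil {x : E} {r₁ : ℝ} (hr₁ : 0 < r₁) (hU' : closedBall x (2 * r₁) ⊆ U)
    (hx : GoodPt V x) {l : ℝ} (hl : 0 < l) {ρ : ℝ} (hρ : 0 < ρ) {w : E → E}
    (h : OnGraph (V.tangent x) (dilM m 0 l (SUB.cylMeas V x r₁)) ρ w) :
    ∃ W S : Set E, IsOpen W ∧ x ∈ W ∧ W ⊆ U ∧ IsSmoothSubmanifold m S ∧ V.spt ∩ W ⊆ S := by
  have h1 := (h.mono (min_le_left ρ (l * r₁))).of_dil hl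
  have hρ' : 0 < min ρ (l * r₁) := lt_min hρ (mul_pos hl hr₁)
  refine uc_of_graph hr₁ hU' hx.spt hx.tan.1 (r := l⁻¹ * min ρ (l * r₁)) ?_ ?_ h1
  · exact mul_pos (inv_pos.2 hl) hρ'
  · calc l⁻¹ * min ρ (l * r₁) ≤ l⁻¹ * (l * r₁) :=
          mul_le_mul_of_nonneg_left (min_le_right _ _) (inv_pos.2 hl).le
      _ = r₁ := by rw [← mul_assoc, inv_mul_cancel₀ hl.ne', one_mul]

/-- **`UC` at points of multiplicity one** -/
theorem uc_one (hA : AllardOne E m) (hU : IsOpen U) (hst : V.IsStationary) {x : E}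
    (hx : GoodPt V x) (h1 : V.mult x = 1) :
    ∃ W S : Set E, IsOpen W ∧ x ∈ W ∧ W ⊆ U ∧ IsSmoothSubmanifold m S ∧ V.spt ∩ W ⊆ S := by
  obtain ⟨ε, hε, H⟩ := hA
  obtain ⟨r₁, hr₁, hUr, hI, hexc⟩ :=
    (exists_scale hU hst hx (show (0:ℝ) < 3 / 8 by norm_num) hε).exists
  rw [h1] at hI
  obtain ⟨w, hw⟩ := H _ ε _ _ le_rfl hI hexc
  exact uc_of_dil hr₁ hUr hx (div_pos (by norm_num) hr₁) (by norm_num) hw

end Vale.Agent.P214.ALL
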