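import Vale.Agent.P214.ALL.Limit
import Vale.Agent.P214.ALL.Iter
import Vale.Agent.P214.ALL.UC1

/-!
# P214, block ALL: Allard's theorem for one sheet from STEP (`Q = 1`) and REG
-/

open Set Filter Topology MeasureTheory Metric
open scoped RealInnerProductSpace ENNReal ContDiff

set_option linter.all false

namespace Vale.Agent.P214.ALL

open Skel WIN

variable {E : Type*} [NormedAddCommGroup E] [InnerProductSpace ℝ E] [FiniteDimensional ℝ E]
  [MeasurableSpace E] [BorelSpace E]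
variable {m n : ℕ}

/-- what is preserved along the iteration -/
structure Exa (u : Fin n → REF.E m → ℝ) (r : ℝ) : Prop where
  cs : Cs u
  exact : ∀ a x, ‖x‖ < r → REF.Mop u a x = 0

lemma exa_zero (r : ℝ) : Exa (fun (_ : Fin n) (_ : REF.E m) => (0:ℝ)) r := by
  refine ⟨Cs.zero, ?_⟩
  intro a x _
  unfold REF.Mop
  have h0 : ∀ j, (REF.pd j fun _ : REF.E m => (0:ℝ)) = fun _ => 0 := by
    intro j
    funext x
    simp [REF.pd]
  have h1 : ∀ i j, REF.pd i (REF.pd j fun _ : REF.E m => (0:ℝ)) x = 0 := by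
    intro i j
    rw [h0, h0]
  simp only [h1, mul_zero, Finset.sum_const_zero]

/-- the scheme given by STEP -/
theorem scheme {c₀ c₁ ε : ℝ} (hc₀ : 0 < c₀) (hc₁ : 0 < c₁) 
    {T : Submodule ℝ E} (F : Frame m n T) {h : ℝ} {ν : Measure E} {P : E → E →L[ℝ] E}
    (hI : IntCyl m 1 T 0 (3 / 8) h ε ν P)
    (H : ∀ (u : Fin n → REF.E m → ℝ) (r H θ : ℝ), Refe ε r u → 3 / 32 ≤ r → r ≤ 3 / 16 →
      H = hE T (F.lift u) ν r → 0 < H → H ≤ ε → θ = H ^ c₁ →
      ∃ u' : Fin n → REF.E m → ℝ, (∀ a, ContDiff ℝ ∞ (u' a)) ∧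
        (∀ a x, r ≤ ‖x‖ → u' a x = u a x) ∧
        (∀ a, ∀ k ≤ sW m, ∀ x,
          ‖iteratedFDeriv ℝ k (fun x => u' a x - u a x) x‖ ≤ H ^ (1 / 2 - c₁ / c₀)) ∧
        (∀ a x, ‖x‖ < r - 5 * θ → REF.Mop u' a x = 0) ∧
        hE T (F.lift u') ν (r - 8 * θ) ≤ H ^ (1 + c₀)) {ε₀ : ℝ} (hε₀ : ε₀ ≤ ε) :
    Scheme (Fin n → REF.E m → ℝ) Exa (fun u r => hE T (F.lift u) ν r) CN
      (fun u u' => CN fun a x => u' a x - u a x) (1 / 2 - c₁ / c₀) c₀ c₁ ε₀ 8 (3 / 16) := by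
  refine ⟨fun w r => hE_nonneg _ _ _ _, ?_, ?_, ?_, ?_⟩
  · intro w r r' hr' hr hex
    exact hE_mono hI.cyl F (fun a => (hex.cs.smooth a).continuous) hex.cs.supp
      (ball_subset_ball (by linarith)) hr'
  · intro w r r' hr' hex
    exact ⟨hex.cs, fun a x hx => hex.exact a x (hx.trans_le hr')⟩
  · intro w
    have e : (fun a x => w a x - w a x) = fun (_ : Fin n) (_ : REF.E m) => (0:ℝ) := by
      funext a x; ring
    rw [e, CN_zero]
  · intro w r hr1 hr2 hnm hex hE0 hEε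
    have hr1' : 3 / 32 ≤ r := by linarith
    obtain ⟨u', h1, h2, h3, h4, h5⟩ := H w r _ _ (hex.cs.refe (hnm.trans hε₀) hex.exact) hr1' hr2
      rfl hE0 (hEε.trans hε₀) rfl
    have hcs : Cs u' := ⟨h1, fun a x hx => by rw [h2 a x (by linarith), hex.cs.supp a x hx]⟩
    have hadd := CN_le_add_sub hex.cs hcs
    have hpow : 0 ≤ hE T (F.lift w) ν r ^ (1 / 2 - c₁ / c₀) := Real.rpow_nonneg hE0.le _
    have hd : CN (fun a x => u' a x - w a x) ≤ hE T (F.lift w) ν r ^ (1 / 2 - c₁ / c₀) :=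
      CN_le hpow h3
    have hθ : 0 ≤ hE T (F.lift w) ν r ^ c₁ := Real.rpow_nonneg hE0.le _
    refine ⟨u', by linarith, hd, ⟨hcs, ?_⟩, h5⟩
    intro a x hx
    exact h4 a x (by linarith)

/-- **Allard's theorem for one sheet** -/
theorem allardOne (hS : StepOneStmt E m (Module.finrank ℝ E - m))
    (hR : RegLimStmt m (Module.finrank ℝ E - m)) : AllardOne E m := by
  obtain ⟨c₀, hc₀, H1⟩ := hS
  obtain ⟨ε₂, hε₂, hstop⟩ := onGraph_of_summable (E := E) hR
  set c₁ : ℝ := min (c₀ ^ 2) (c₀ / 4) with hc₁def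
  have hc₁ : 0 < c₁ := lt_min (by positivity) (by positivity)
  obtain ⟨ε₄, hε₄, H2⟩ := H1 c₁ hc₁ (min_le_left _ _)
  set ε₁ : ℝ := min ε₄ ((1 / 640) ^ (1 / c₁)) with hε₁def
  have hε₁ : 0 < ε₁ := lt_min hε₄ (Real.rpow_pos_of_pos (by norm_num) _)
  have hθle : ∀ H' : ℝ, 0 < H' → H' ≤ ε₁ → H' ^ c₁ ≤ 1 / 640 := by
    intro H' h0 h1
    calc H' ^ c₁ ≤ ((1 / 640 : ℝ) ^ (1 / c₁)) ^ c₁ :=
          Real.rpow_le_rpow h0.le (h1.trans (min_le_right _ _)) hc₁.le
      _ = 1 / 640 := by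
          rw [← Real.rpow_mul (by norm_num), one_div_mul_cancel hc₁.ne', Real.rpow_one]
  have h14 : ε₁ ≤ ε₄ := min_le_left _ _
  have ha : 0 < 1 / 2 - c₁ / c₀ := by
    have h1 : c₁ / c₀ ≤ 1 / 4 := by
      rw [div_le_iff₀ hc₀]
      calc c₁ ≤ c₀ / 4 := min_le_right _ _
        _ = 1 / 4 * c₀ := by ring
    linarith
  set ε₀ : ℝ := min ε₁ ε₂ with hε₀def
  have hε₀ : 0 < ε₀ := lt_min hε₁ hε₂
  obtain ⟨ε₃, hε₃, H3⟩ := exists_seq (B := 8) (ρ := 3 / 16) ha hc₀ hc₁ hε₀ (by norm_num)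
    (by norm_num)
  -- the final smallness
  have hom : 0 ≤ om m := ENNReal.toReal_nonneg
  set ε : ℝ := min (min ε₁ 1) (ε₃ / (om m + 1)) with hεdef
  have hε : 0 < ε := lt_min (lt_min hε₁ one_pos) (by positivity)
  refine ⟨ε, hε, ?_⟩
  intro T h ν P hh hI hexc
  haveI := hI.cyl.fin
  have hε1 : ε ≤ ε₁ := (min_le_left _ _).trans (min_le_left _ _)
  have hε1' : ε ≤ 1 := (min_le_left _ _).trans (min_le_right _ _)
  have hεm : ε ≤ ε₃ / (om m + 1) := min_le_right _ _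
  obtain ⟨F⟩ := exists_frame (n := Module.finrank ℝ E - m) hI.cyl.dimT rfl
  have hI' : IntCyl m 1 T 0 (3 / 8) h ε₁ ν P :=
    ⟨hI.cyl, hI.mem, hI.pos, hI.int, hI.mass.trans (mul_le_mul_of_nonneg_right hε1 (by positivity))⟩
  have hSch := scheme (P := P) hc₀ hc₁ F hI' (fun u r H' θ q1 q2 q3 q4 q5 q6 q7 =>
    H2 T F u r h H' θ ν P (q1.weaken h14 le_rfl) q2 q3 ((hh.trans hε1).trans h14)
      ⟨hI'.cyl, hI'.mem, hI'.pos, hI'.int,
        hI'.mass.trans (mul_le_mul_of_nonneg_right h14 (by positivity))⟩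
      ((hexc.trans hε1).trans h14) q4 q5 (q6.trans h14) q7.ge (q7.le.trans (hθle H' q5 q6)))
    (ε₀ := ε₀) (min_le_left _ _)
  -- the starting height
  have hstart : hE T (F.lift fun (_ : Fin (Module.finrank ℝ E - m)) (_ : REF.E m) => (0:ℝ)) ν
      (3 / 16) ≤ ε₃ := by
    refine (hE_mono hI.cyl F (fun _ => continuous_const) (fun _ _ _ => rfl)
      (ball_subset_ball le_rfl) (show (3:ℝ) / 16 ≤ 3 / 8 by norm_num)).trans ?_
    have hz : ∀ y, KMS.rel T (F.lift fun (_ : Fin (Module.finrank ℝ E - m)) (_ : REF.E m) =>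
        (0:ℝ)) y = y - T.starProjection y := by
      intro y
      unfold KMS.rel Frame.lift
      simp [FV.co_apply]
    unfold hE
    simp only [hz]
    have hmass : ν.real (cylSet T 0 (3 / 8)) ≤ om m + 1 := by
      have h1 := (abs_le.1 hI.mass).2
      have h2 : (3 / 8 : ℝ) ^ m ≤ 1 := pow_le_one₀ (by norm_num) (by norm_num)
      have h3 : (0:ℝ) < (3 / 8 : ℝ) ^ m := by positivity
      push_cast at h1
      nlinarith [mul_le_mul_of_nonneg_left h2 hom, mul_le_mul hε1' h2 h3.le zero_le_one]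
    calc ∫ y in cylSet T 0 (3 / 8), ‖y - T.starProjection y‖ ^ 2 ∂ν
        ≤ ∫ y in cylSet T 0 (3 / 8), ε ∂ν := by
          refine integral_mono_of_nonneg (Eventually.of_forall fun y => sq_nonneg _)
            (integrable_const _) ?_
          rw [EventuallyLE, ae_restrict_iff' (measurableSet_cyl T 0 (3 / 8))]
          filter_upwards [hI.cyl.slab] with y hy hyr
          have h1 : ‖y - T.starProjection y‖ ≤ ε := (hy hyr).trans hh
          calc ‖y - T.starProjection y‖ ^ 2 ≤ ε ^ 2 := pow_le_pow_left₀ (norm_nonneg _) h1 2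
            _ = ε * ε := sq ε
            _ ≤ ε * 1 := mul_le_mul_of_nonneg_left hε1' hε.le
            _ = ε := mul_one ε
      _ = ν.real (cylSet T 0 (3 / 8)) * ε := by
          rw [setIntegral_const, smul_eq_mul]
      _ ≤ (om m + 1) * (ε₃ / (om m + 1)) := mul_le_mul hmass hεm hε.le (by positivity)
      _ = ε₃ := by field_simp
  obtain ⟨w, hw0, hw1, hw2, hw3, hw4⟩ := H3 hSch (fun _ _ => 0) (by
    rw [CN_zero]; positivity) (exa_zero _) hstart
  have h32 : (3 / 16 : ℝ) / 2 = 3 / 32 := by norm_num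
  rw [h32] at hw4
  have hex : ∀ j, Exa (w j) (3 / 32) := fun j => by rw [← h32]; exact hw2 j
  obtain ⟨v, -, hv⟩ := hstop F hI.cyl (r := 3 / 32) (by norm_num) (by norm_num)
    (ball_subset_ball (by norm_num)) (u := w) (b := fun j => (1 / 2) ^ j)
    (summable_geometric_of_lt_one (by norm_num) (by norm_num))
    (fun j => (hex j).cs.refe ((hw1 j).trans (min_le_right _ _)) (hex j).exact)
    (fun j a x => ((((hex (j + 1)).cs.sub (hex j).cs).abs_le_CN a x).trans (hw3 j))) hw4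
  exact ⟨_, hv⟩

/-- **`UC` at points of multiplicity one, from STEP and REG** -/
theorem uc_mult_one (hS : StepOneStmt E m (Module.finrank ℝ E - m))
    (hR : RegLimStmt m (Module.finrank ℝ E - m)) {U : Set E} {V : IntegralVarifold m U}
    (hU : IsOpen U) (hst : V.IsStationary) {x : E} (hx : GoodPt V x) (h1 : V.mult x = 1) :
    ∃ W S : Set E, IsOpen W ∧ x ∈ W ∧ W ⊆ U ∧ IsSmoothSubmanifold m S ∧ V.spt ∩ W ⊆ S :=
  uc_one (allardOne hS hR) hU hst hx h1

end Vale.Agent.P214.ALL
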